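import Vale.Agent.AKS.Main

/-! # Gluing at a vertex and disjoint unions -/

namespace AKSGlue

open Finset
open scoped Classical

variable {W : Type}

theorem colorable_empty {V : Type} [IsEmpty V] (G : SimpleGraph V) (n : ℕ) : G.Colorable n :=
  ⟨SimpleGraph.Coloring.mk (fun v => isEmptyElim v) (fun {v} => isEmptyElim v)⟩

/-- a copy of a part with an injective adjacency preserving map -/
theorem contained_of_map {W V : Type} {F : SimpleGraph W} {G : SimpleGraph V} (φ : W → V)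
    (hi : Function.Injective φ) (ha : ∀ a b, F.Adj a b → G.Adj (φ a) (φ b)) :
    F.IsContained G :=
  ⟨⟨⟨φ, fun {a b} h => ha a b h⟩, hi⟩⟩

/-- the glued copy -/
theorem glue_copy {V : Type} {F : SimpleGraph W} {G : SimpleGraph V} (S₁ S₂ : Set W)
    (hcov : ∀ a, a ∈ S₁ ∨ a ∈ S₂)
    (hadj : ∀ a b, F.Adj a b → (a ∈ S₁ ∧ b ∈ S₁) ∨ (a ∈ S₂ ∧ b ∈ S₂))
    (φ ψ : W → V) (hφ : Set.InjOn φ S₁) (hψ : Set.InjOn ψ S₂)
    (hφa : ∀ a b, a ∈ S₁ → b ∈ S₁ → F.Adj a b → G.Adj (φ a) (φ b))
    (hψa : ∀ a b, a ∈ S₂ → b ∈ S₂ → F.Adj a b → G.Adj (ψ a) (ψ b))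
    (heq : ∀ a, a ∈ S₁ → a ∈ S₂ → φ a = ψ a)
    (hdis : ∀ a b, a ∈ S₁ → b ∈ S₂ → b ∉ S₁ → φ a ≠ ψ b) : F.IsContained G := by
  refine contained_of_map (fun a => if a ∈ S₁ then φ a else ψ a) ?_ ?_
  · intro a b hab
    simp only at hab
    by_cases ha : a ∈ S₁ <;> by_cases hb : b ∈ S₁
    · rw [if_pos ha, if_pos hb] at hab
      exact hφ ha hb hab
    · rw [if_pos ha, if_neg hb] at hab
      exact absurd hab (hdis a b ha ((hcov b).resolve_left hb) hb)
    · rw [if_neg ha, if_pos hb] at hab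
      exact absurd hab.symm (hdis b a hb ((hcov a).resolve_left ha) ha)
    · rw [if_neg ha, if_neg hb] at hab
      exact hψ ((hcov a).resolve_left ha) ((hcov b).resolve_left hb) hab
  · intro a b hab
    rcases hadj a b hab with ⟨ha, hb⟩ | ⟨ha, hb⟩
    · simp only [if_pos ha, if_pos hb]
      exact hφa a b ha hb hab
    · have e : ∀ x, x ∈ S₂ → (if x ∈ S₁ then φ x else ψ x) = ψ x := by
        intro x hx
        by_cases h1 : x ∈ S₁
        · rw [if_pos h1, heq x h1 hx]
        · rw [if_neg h1]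
      simp only [e a ha, e b hb]
      exact hψa a b ha hb hab

/-- extension of a partial map (the value outside does not matter) -/
theorem free_induce_of {V : Type} {F : SimpleGraph W} {G : SimpleGraph V} (S : Set W) (Q : Set V)
    (v0 : V)
    (h : ∀ φ : W → V, Set.InjOn φ S → (∀ a b, a ∈ S → b ∈ S → F.Adj a b → G.Adj (φ a) (φ b)) →
      (∀ a ∈ S, φ a ∈ Q) → False) : (F.induce S).Free (G.induce Q) := by
  rintro ⟨⟨f, hf⟩⟩
  refine h (fun a => if ha : a ∈ S then (f ⟨a, ha⟩).1 else v0) ?_ ?_ ?_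
  · intro a ha b hb hab
    simp only [dif_pos ha, dif_pos hb] at hab
    have := hf (Subtype.ext hab)
    exact congrArg Subtype.val this
  · intro a b ha hb hab
    simp only [dif_pos ha, dif_pos hb]
    exact f.map_adj (show (F.induce S).Adj ⟨a, ha⟩ ⟨b, hb⟩ from hab)
  · intro a ha
    simp only [dif_pos ha]
    exact (f ⟨a, ha⟩).2

/-- the main gluing theorem -/
theorem aks_glue [Fintype W] (F : SimpleGraph W) (S₁ S₂ : Set W)
    (hcov : ∀ a, a ∈ S₁ ∨ a ∈ S₂)
    (hadj : ∀ a b, F.Adj a b → (a ∈ S₁ ∧ b ∈ S₁) ∨ (a ∈ S₂ ∧ b ∈ S₂))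
    (hone : ∀ a b, a ∈ S₁ → a ∈ S₂ → b ∈ S₁ → b ∈ S₂ → a = b)
    (h1 : AKS (F.induce S₁)) (h2 : AKS (F.induce S₂)) : AKS F := by
  obtain ⟨C₁, D₁, hC₁, hD₁, H1⟩ := aks_le h1
  obtain ⟨C₂, D₂, hC₂, hD₂, H2⟩ := aks_le h2
  set k := Fintype.card W with hk
  refine ⟨(2 * k + 1) * C₁ + C₂ + k, max D₁ D₂, ?_⟩
  intro V _ G _ hF hD
  set Δ := G.maxDegree with hΔdef
  have hDΔ1 : D₁ ≤ Δ := le_trans (le_max_left _ _) hD
  have hDΔ2 : D₂ ≤ Δ := le_trans (le_max_right _ _) hD
  have hΔr : (3 : ℝ) ≤ Δ := by exact_mod_cast hD₁.trans hDΔ1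
  have hlog := one_le_log hΔr
  have hlogle : Real.log Δ ≤ Δ := by
    have := Real.log_le_sub_one_of_pos (show (0 : ℝ) < Δ by linarith)
    linarith
  have hq1 : 1 ≤ (Δ : ℝ) / Real.log Δ := by
    rw [le_div_iff₀ (by linarith)]
    linarith
  -- colours for the two kinds of parts
  have key1 : ∀ P : Set V, (F.induce S₁).Free (G.induce P) →
      (G.induce P).Colorable ⌊C₁ * Δ / Real.log Δ⌋₊ := by
    intro P hP
    obtain ⟨n, hn, hle⟩ := H1 P (G.induce P) Δ hP hDΔ1 (maxDegree_induce_le G P)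
    exact hn.mono (Nat.le_floor hle)
  have key2 : ∀ P : Set V, (F.induce S₂).Free (G.induce P) →
      (G.induce P).Colorable ⌊C₂ * Δ / Real.log Δ⌋₊ := by
    intro P hP
    obtain ⟨n, hn, hle⟩ := H2 P (G.induce P) Δ hP hDΔ2 (maxDegree_induce_le G P)
    exact hn.mono (Nat.le_floor hle)
  have hn1 : ((⌊C₁ * Δ / Real.log Δ⌋₊ : ℕ) : ℝ) ≤ C₁ * Δ / Real.log Δ :=
    Nat.floor_le (by positivity)
  have hn2 : ((⌊C₂ * Δ / Real.log Δ⌋₊ : ℕ) : ℝ) ≤ C₂ * Δ / Real.log Δ :=
    Nat.floor_le (by positivity)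
  set n₁ := ⌊C₁ * Δ / Real.log Δ⌋₊ with hn₁
  set n₂ := ⌊C₂ * Δ / Real.log Δ⌋₊ with hn₂
  -- it suffices to colour with `(2k+1) n₁ + (n₂ + k)` colours
  suffices hsuff : G.Colorable ((2 * k + 1) * n₁ + (n₂ + k)) by
    refine ⟨_, hsuff, ?_⟩
    have e : ((2 * k + 1) * C₁ + C₂ + k) * Δ / Real.log Δ
        = (2 * k + 1) * (C₁ * Δ / Real.log Δ) + C₂ * Δ / Real.log Δ + k * (Δ / Real.log Δ) := by
      ring
    rw [e]
    push_cast
    have h3 : (k : ℝ) * 1 ≤ k * (Δ / Real.log Δ) :=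
      mul_le_mul_of_nonneg_left hq1 (Nat.cast_nonneg _)
    have h4 : (2 * (k : ℝ) + 1) * n₁ ≤ (2 * k + 1) * (C₁ * Δ / Real.log Δ) :=
      mul_le_mul_of_nonneg_left hn1 (by positivity)
    linarith
  by_cases hV : IsEmpty V
  · exact colorable_empty G _
  rw [not_isEmpty_iff] at hV
  obtain ⟨v0⟩ := hV
  by_cases hr : ∃ r, r ∈ S₁ ∧ r ∈ S₂
  · obtain ⟨r, hr1, hr2⟩ := hr
    -- poor vertices
    let Poor : Set V := {v | ∃ T : Finset V, v ∉ T ∧ T.card ≤ k ∧
      ∀ φ : W → V, Set.InjOn φ S₁ →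
        (∀ a b, a ∈ S₁ → b ∈ S₁ → F.Adj a b → G.Adj (φ a) (φ b)) → φ r = v →
        ∃ a ∈ S₁, φ a ∈ T}
    let T : V → Finset V := fun v => if h : v ∈ Poor then h.choose else ∅
    have hT : ∀ v, (T v).card ≤ k := by
      intro v
      by_cases h : v ∈ Poor
      · simp only [T, dif_pos h]
        exact h.choose_spec.2.1
      · simp [T, h]
    obtain ⟨c, hc⟩ := dcol T k hT
    have hP : ∀ i, (G.induce {v | v ∈ Poor ∧ c v = i}).Colorable n₁ := by
      intro i
      refine key1 _ (free_induce_of S₁ _ v0 ?_)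
      intro φ hφ hφa hφQ
      have hv := hφQ r hr1
      have hTv : T (φ r) = hv.1.choose := by
        simp only [T, dif_pos hv.1]
      obtain ⟨a, ha, haT⟩ := hv.1.choose_spec.2.2 φ hφ hφa rfl
      rw [← hTv] at haT
      have hne : φ a ≠ φ r := by
        intro h
        rw [h, hTv] at haT
        exact hv.1.choose_spec.1 haT
      exact hc (φ r) (φ a) haT hne ((hφQ a ha).2.trans hv.2.symm)
    have hQ : (G.induce Poorᶜ).Colorable (n₂ + k) := by
      refine (key2 _ (free_induce_of S₂ _ v0 ?_)).mono (Nat.le_add_right _ _)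
      intro ψ hψ hψa hψQ
      have hv : ψ r ∉ Poor := hψQ r hr2
      apply hv
      by_contra hcon
      apply hF
      have hcard : ((Finset.univ.filter (fun a : W => a ∈ S₂)).image ψ |>.erase (ψ r)).card
          ≤ k := by
        refine (Finset.card_le_card (Finset.erase_subset _ _)).trans ?_
        refine Finset.card_image_le.trans ?_
        rw [hk, ← Finset.card_univ]
        exact Finset.card_le_card (Finset.filter_subset _ _)
      have hnot : ¬ ∀ φ : W → V, Set.InjOn φ S₁ →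
          (∀ a b, a ∈ S₁ → b ∈ S₁ → F.Adj a b → G.Adj (φ a) (φ b)) → φ r = ψ r →
          ∃ a ∈ S₁, φ a ∈ ((Finset.univ.filter (fun a : W => a ∈ S₂)).image ψ).erase (ψ r) :=
        fun hh => hcon ⟨_, Finset.notMem_erase _ _, hcard, hh⟩
      push Not at hnot
      obtain ⟨φ, hφ, hφa, hφr, hφT⟩ := hnot
      refine glue_copy S₁ S₂ hcov hadj φ ψ hφ hψ hφa hψa ?_ ?_
      · intro a ha1 ha2
        rw [hone a r ha1 ha2 hr1 hr2, hφr]
      · intro a b ha hb hb1 hab
        apply hφT a ha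
        rw [hab, Finset.mem_erase, Finset.mem_image]
        refine ⟨fun h => hb1 ?_, b, Finset.mem_filter.2 ⟨Finset.mem_univ _, hb⟩, rfl⟩
        rw [hψ hb hr2 h]
        exact hr1
    exact colorable_parts G Poor (2 * k + 1) n₁ (n₂ + k) c hP hQ
  · -- disjoint union
    push Not at hr
    by_cases hex : ∃ φ : W → V, Set.InjOn φ S₁ ∧
        ∀ a b, a ∈ S₁ → b ∈ S₁ → F.Adj a b → G.Adj (φ a) (φ b)
    · obtain ⟨φ, hφ, hφa⟩ := hex
      set X : Set V := φ '' S₁ with hX
      have hXc : (G.induce Xᶜ).Colorable n₂ := by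
        refine key2 _ (free_induce_of S₂ _ v0 ?_)
        intro ψ hψ hψa hψQ
        apply hF
        refine glue_copy S₁ S₂ hcov hadj φ ψ hφ hψ hφa hψa
          (fun a ha1 ha2 => absurd ha2 (hr a ha1)) ?_
        intro a b ha hb _ hab
        exact hψQ b hb (by rw [← hab]; exact Set.mem_image_of_mem φ ha)
      have hXcard : Fintype.card X ≤ k := by
        rw [hk]
        have h5 : Fintype.card X = X.toFinset.card := by rw [Set.toFinset_card]
        rw [h5, ← Finset.card_univ]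
        refine le_trans (Finset.card_le_card (t := (Finset.univ : Finset W).image φ) ?_)
          Finset.card_image_le
        intro x hx
        rw [Set.mem_toFinset] at hx
        obtain ⟨a, _, rfl⟩ := hx
        exact Finset.mem_image_of_mem φ (Finset.mem_univ a)
      have hXcol : (G.induce X).Colorable k := by
        have h6 : (G.induce X).Colorable (Fintype.card X) :=
          (SimpleGraph.selfColoring (G.induce X)).colorable
        exact h6.mono hXcard
      have hcomb : G.Colorable (1 * k + n₂) :=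
        colorable_parts G X 1 k n₂ (fun _ => 0) (fun i => by
          have h7 : {v | v ∈ X ∧ (fun _ : V => (0 : Fin 1)) v = i} = X := by
            ext v
            simp [Subsingleton.elim (0 : Fin 1) i]
          rw [h7]
          exact hXcol) hXc
      refine hcomb.mono ?_
      nlinarith [Nat.zero_le n₁]
    · have hfree : (F.induce S₁).Free (G.induce (Set.univ : Set V)) :=
        free_induce_of S₁ _ v0 fun φ hφ hφa _ => hex ⟨φ, hφ, hφa⟩
      have hcol := key1 _ hfree
      have hcomb : G.Colorable (1 * n₁ + 0) :=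
        colorable_parts G Set.univ 1 n₁ 0 (fun _ => 0) (fun i => by
          have h7 : {v | v ∈ (Set.univ : Set V) ∧ (fun _ : V => (0 : Fin 1)) v = i}
              = Set.univ := by
            ext v
            simp [Subsingleton.elim (0 : Fin 1) i]
          rw [h7]
          exact hcol) (by
          have : IsEmpty ((Set.univ : Set V)ᶜ : Set V) := by
            rw [Set.compl_univ]
            infer_instance
          exact colorable_empty _ _)
      refine hcomb.mono ?_
      nlinarith [Nat.zero_le n₁, Nat.zero_le n₂, Nat.zero_le k, Nat.zero_le (k * n₁)]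

end AKSGlue
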