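import Mathlib

/-! # The Alon-Krivelevich-Sudakov property and gluing at a vertex -/

namespace AKSGlue

open Finset
open scoped Classical

/-- Q1 for the forbidden graph `F`: there are constants `C` and `D` such that every finite `F`-free
graph `G` of maximum degree `Δ ≥ D` can be coloured with at most `C Δ / log Δ` colours. -/
def AKS {W : Type} (F : SimpleGraph W) : Prop :=
  ∃ (C : ℝ) (D : ℕ), ∀ (V : Type) [Fintype V] (G : SimpleGraph V) [DecidableRel G.Adj],
    F.Free G → D ≤ G.maxDegree →
      ∃ n : ℕ, G.Colorable n ∧ (n : ℝ) ≤ C * G.maxDegree / Real.log G.maxDegree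

/-- colouring a digraph of out-degree at most `k` with `2 k + 1` colours -/
theorem dcol {V : Type} [Fintype V] (T : V → Finset V) (k : ℕ) (hT : ∀ v, (T v).card ≤ k) :
    ∃ c : V → Fin (2 * k + 1), ∀ v, ∀ u ∈ T v, u ≠ v → c u ≠ c v := by
  have key : ∀ (m : ℕ) (s : Finset V), s.card = m →
      ∃ c : V → Fin (2 * k + 1), ∀ v ∈ s, ∀ u ∈ s, u ∈ T v → u ≠ v → c u ≠ c v := by
    intro m
    induction m with
    | zero =>
      intro s hs
      refine ⟨fun _ => ⟨0, by omega⟩, fun v hv => ?_⟩
      rw [Finset.card_eq_zero] at hs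
      rw [hs] at hv
      exact absurd hv (Finset.notMem_empty v)
    | succ m ih =>
      intro s hs
      have hsne : s.Nonempty := by rw [← Finset.card_pos]; omega
      have hsum : ∑ v ∈ s, (s.filter (fun u => v ∈ T u)).card ≤ ∑ v ∈ s, k := by
        have h1 : ∑ v ∈ s, (s.filter (fun u => v ∈ T u)).card
            = ∑ u ∈ s, (s.filter (fun v => v ∈ T u)).card := by
          simp only [Finset.card_filter]
          exact Finset.sum_comm
        rw [h1]
        refine Finset.sum_le_sum fun u _ => (Finset.card_le_card ?_).trans (hT u)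
        intro v hv
        exact (Finset.mem_filter.1 hv).2
      obtain ⟨v, hv, hvk⟩ := Finset.exists_le_of_sum_le hsne hsum
      obtain ⟨c, hc⟩ := ih (s.erase v) (by rw [Finset.card_erase_of_mem hv]; omega)
      have hcard : ((T v ∪ s.filter (fun u => v ∈ T u)).image c).card < 2 * k + 1 := by
        have h1 := Finset.card_image_le (s := T v ∪ s.filter (fun u => v ∈ T u)) (f := c)
        have h2 := Finset.card_union_le (T v) (s.filter (fun u => v ∈ T u))
        have h3 := hT v
        omega
      obtain ⟨x, hx⟩ : ∃ x : Fin (2 * k + 1),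
          x ∉ (T v ∪ s.filter (fun u => v ∈ T u)).image c := by
        by_contra hcon
        push Not at hcon
        have h1 : (Finset.univ : Finset (Fin (2 * k + 1)))
            ⊆ (T v ∪ s.filter (fun u => v ∈ T u)).image c := fun x _ => hcon x
        have h2 := Finset.card_le_card h1
        rw [Finset.card_univ, Fintype.card_fin] at h2
        omega
      refine ⟨Function.update c v x, ?_⟩
      intro a ha b hb hab hne
      by_cases hav : a = v
      · subst hav
        rw [Function.update_self, Function.update_of_ne hne]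
        intro h
        apply hx
        rw [Finset.mem_image]
        exact ⟨b, Finset.mem_union_left _ hab, h⟩
      · by_cases hbv : b = v
        · subst hbv
          rw [Function.update_self, Function.update_of_ne hav]
          intro h
          apply hx
          rw [Finset.mem_image]
          exact ⟨a, Finset.mem_union_right _ (Finset.mem_filter.2 ⟨ha, hab⟩), h.symm⟩
        · rw [Function.update_of_ne hbv, Function.update_of_ne hav]
          exact hc a (Finset.mem_erase.2 ⟨hav, ha⟩) b (Finset.mem_erase.2 ⟨hbv, hb⟩) hab hne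
  obtain ⟨c, hc⟩ := key _ Finset.univ rfl
  exact ⟨c, fun v u hu hne => hc v (Finset.mem_univ v) u (Finset.mem_univ u) hu hne⟩

theorem one_le_log {x : ℝ} (hx : 3 ≤ x) : 1 ≤ Real.log x := by
  rw [Real.le_log_iff_exp_le (by linarith)]
  have := Real.exp_one_lt_d9
  linarith

/-- the monotone form of the property -/
theorem aks_le {W : Type} {F : SimpleGraph W} (h : AKS F) :
    ∃ (C : ℝ) (D : ℕ), 0 ≤ C ∧ 3 ≤ D ∧ ∀ (V : Type) [Fintype V] (G : SimpleGraph V)
      [DecidableRel G.Adj] (Δ : ℕ), F.Free G → D ≤ Δ → G.maxDegree ≤ Δ →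
      ∃ n : ℕ, G.Colorable n ∧ (n : ℝ) ≤ C * Δ / Real.log Δ := by
  obtain ⟨C, D, hC⟩ := h
  refine ⟨max C (2 * (max D 3 : ℕ) + 1), max D 3, ?_, le_max_right _ _, ?_⟩
  · exact le_trans (by positivity) (le_max_right _ _)
  intro V _ G _ Δ hF hD hΔ
  have hΔ3 : 3 ≤ Δ := le_trans (le_max_right _ _) hD
  have hΔr : (3 : ℝ) ≤ Δ := by exact_mod_cast hΔ3
  have hlog := one_le_log hΔr
  have hlogle : Real.log Δ ≤ Δ := by
    have := Real.log_le_sub_one_of_pos (show (0 : ℝ) < Δ by linarith)
    linarith
  by_cases hcase : max D 3 ≤ G.maxDegree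
  · obtain ⟨n, hn, hle⟩ := hC V G hF (le_trans (le_max_left _ _) hcase)
    refine ⟨n, hn, hle.trans ?_⟩
    have h3 : 3 ≤ G.maxDegree := le_trans (le_max_right _ _) hcase
    have h3r : (3 : ℝ) ≤ G.maxDegree := by exact_mod_cast h3
    have hl := one_le_log h3r
    have hle2 : ((G.maxDegree : ℕ) : ℝ) ≤ Δ := by exact_mod_cast hΔ
    have hanti := Real.log_div_self_antitoneOn
      (show ((G.maxDegree : ℕ) : ℝ) ∈ Set.Ici (Real.exp 1) by
        have := Real.exp_one_lt_d9
        show Real.exp 1 ≤ _
        linarith)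
      (show (Δ : ℝ) ∈ Set.Ici (Real.exp 1) by
        have := Real.exp_one_lt_d9
        show Real.exp 1 ≤ _
        linarith) hle2
    simp only at hanti
    have h5 : (G.maxDegree : ℝ) / Real.log G.maxDegree ≤ Δ / Real.log Δ := by
      rw [div_le_div_iff₀ (by linarith) (by linarith)] at hanti ⊢
      linarith
    have h6 : 0 ≤ (G.maxDegree : ℝ) / Real.log G.maxDegree := by positivity
    calc C * G.maxDegree / Real.log G.maxDegree
        = C * (G.maxDegree / Real.log G.maxDegree) := by ring
      _ ≤ max C (2 * (max D 3 : ℕ) + 1) * (G.maxDegree / Real.log G.maxDegree) :=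
          mul_le_mul_of_nonneg_right (le_max_left _ _) h6
      _ ≤ max C (2 * (max D 3 : ℕ) + 1) * (Δ / Real.log Δ) :=
          mul_le_mul_of_nonneg_left h5 (le_trans (by positivity) (le_max_right _ _))
      _ = _ := by ring
  · push Not at hcase
    obtain ⟨c, hc⟩ := dcol (fun v => G.neighborFinset v) (max D 3) (fun v => by
      rw [SimpleGraph.card_neighborFinset_eq_degree]
      exact (G.degree_le_maxDegree v).trans hcase.le)
    have hcol : G.Colorable (2 * max D 3 + 1) := by
      have hh : G.Coloring (Fin (2 * max D 3 + 1)) := SimpleGraph.Coloring.mk c (by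
        intro v w hvw
        exact (hc v w (by simpa using hvw) hvw.ne').symm)
      have := hh.colorable
      rwa [Fintype.card_fin] at this
    refine ⟨_, hcol, ?_⟩
    have h1 : 1 ≤ (Δ : ℝ) / Real.log Δ := by
      rw [le_div_iff₀ (by linarith)]
      linarith
    calc ((2 * max D 3 + 1 : ℕ) : ℝ) = (2 * (max D 3 : ℕ) + 1 : ℝ) * 1 := by push_cast; ring
      _ ≤ max C (2 * (max D 3 : ℕ) + 1) * (Δ / Real.log Δ) :=
          mul_le_mul (le_max_right _ _) h1 (by norm_num)
            (le_trans (by positivity) (le_max_right _ _))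
      _ = _ := by ring

/-- subgraphs inherit the property -/
theorem aks_of_contained {W W' : Type} {F : SimpleGraph W} {F' : SimpleGraph W'}
    (hFF : F.IsContained F') (h : AKS F') : AKS F := by
  obtain ⟨C, D, hC⟩ := h
  exact ⟨C, D, fun V _ G _ hF hD => hC V G (fun hcon => hF (hFF.trans hcon)) hD⟩

theorem maxDegree_induce_le {V : Type} [Fintype V] (G : SimpleGraph V) [DecidableRel G.Adj]
    (P : Set V) : (G.induce P).maxDegree ≤ G.maxDegree := by
  refine SimpleGraph.maxDegree_le_of_forall_degree_le _ _ fun v => ?_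
  refine le_trans ?_ (G.degree_le_maxDegree v.1)
  rw [← SimpleGraph.card_neighborFinset_eq_degree, ← SimpleGraph.card_neighborFinset_eq_degree]
  refine Finset.card_le_card_of_injOn (fun w => w.1) ?_ ?_
  · intro w hw
    simp only [Finset.mem_coe, SimpleGraph.mem_neighborFinset, SimpleGraph.comap_adj,
      Function.Embedding.subtype_apply] at hw ⊢
    exact hw
  · intro a _ b _ hab
    exact Subtype.ext hab

/-- gluing colourings of parts -/
theorem colorable_parts {V : Type} [Fintype V] (G : SimpleGraph V) (P : Set V) (m a b : ℕ)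
    (c : V → Fin m) (h1 : ∀ i, (G.induce {v | v ∈ P ∧ c v = i}).Colorable a)
    (h2 : (G.induce Pᶜ).Colorable b) : G.Colorable (m * a + b) := by
  have col1 : ∀ i, (G.induce {v | v ∈ P ∧ c v = i}).Coloring (Fin a) := fun i => (h1 i).some
  obtain ⟨col2⟩ := h2
  have hh : G.Coloring ((Fin m × Fin a) ⊕ Fin b) := SimpleGraph.Coloring.mk
    (fun v => if hv : v ∈ P then Sum.inl (c v, col1 (c v) ⟨v, hv, rfl⟩)
      else Sum.inr (col2 ⟨v, hv⟩)) (by
    intro v w hvw
    by_cases hv : v ∈ P <;> by_cases hw : w ∈ P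
    · simp only [dif_pos hv, dif_pos hw, ne_eq, Sum.inl.injEq, Prod.mk.injEq, not_and]
      intro hcc
      have h3 : ∀ (i : Fin m) (hi : c w = i) (hv' : v ∈ P ∧ c v = i),
          ¬ col1 i ⟨v, hv'⟩ = col1 i ⟨w, hw, hi⟩ := by
        intro i hi hv'
        exact (col1 i).valid (show (G.induce {v | v ∈ P ∧ c v = i}).Adj ⟨v, hv'⟩ ⟨w, hw, hi⟩
          from hvw)
      have h4 := h3 (c v) hcc.symm ⟨hv, rfl⟩
      have h5 : ∀ (i : Fin m) (hi : c w = i), col1 i ⟨w, hw, hi⟩ = col1 (c w) ⟨w, hw, rfl⟩ := by
        intro i hi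
        subst hi
        rfl
      rw [h5 (c v) hcc.symm] at h4
      exact h4
    · simp [hv, hw]
    · simp [hv, hw]
    · simp only [dif_neg hv, dif_neg hw, ne_eq, Sum.inr.injEq]
      exact col2.valid (show (G.induce Pᶜ).Adj ⟨v, hv⟩ ⟨w, hw⟩ from hvw))
  have h := hh.colorable
  simpa using h

end AKSGlue
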